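import Vale.Agent.P270W81.Zar
import Vale.Agent.P270L.S9San

/-!
# P270W81: the log discrepancies exist on every model; klt by models implies klt by valuations
-/

set_option linter.all false

open CategoryTheory AlgebraicGeometry TopologicalSpace Order

namespace Vale.Agent.P270W81

open Vale.Agent.P289 Vale.Agent.P289.Var Vale.Agent.P289.H219 Vale.Agent.P299.G Vale.Agent.P289W
open Vale.Agent.P289W.Model (ord Reg exists_frac)
open Vale.Agent.P270L (toQ IsCartierMultiple IsQCartier IsKltPair)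
open Vale.Agent.P285N.Brep (jac Fr)

variable {k : Type} [Field k] {V : Var k} {M : Model V}

theorem pull_ne {g : V.K} (hg : g ≠ 0) : M.pull g ≠ 0 := (map_ne_zero M.pull).2 hg

theorem ord_mul {f g : V.K} (hf : f ≠ 0) (hg : g ≠ 0) (E : M.PrimeDiv) :
    ord (f * g) E = ord f E + ord g E := by
  rw [ord, map_mul]
  exact Scheme.ord_mul (pull_ne hf) (pull_ne hg)

theorem ord_inv {g : V.K} (hg : g ≠ 0) (E : M.PrimeDiv) : ord g⁻¹ E = - ord g E := by
  rw [ord, map_inv₀]
  exact ord_inv' (pull_ne hg) _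

theorem ord_pow {g : V.K} (hg : g ≠ 0) (E : M.PrimeDiv) (n : ℕ) : ord (g ^ n) E = n * ord g E := by
  rw [ord, map_pow, ← zpow_natCast]
  exact ord_zpow' (pull_ne hg) _ _

theorem reg_ord (E : M.PrimeDiv) (g : V.K) : Reg E g ↔ (g ≠ 0 → 0 ≤ ord g E) :=
  (reg_iff E.2 (M.pull g)).trans (by rw [map_ne_zero]; rfl)

/-- the local ring of `E` -/
noncomputable def loc (E : M.PrimeDiv) : Subring V.K :=
  (toK E.1).range.comap M.pull.toRingHom

theorem mem_loc {E : M.PrimeDiv} {g : V.K} : g ∈ loc E ↔ Reg E g := Iff.rfl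

theorem toK_mem (E : M.PrimeDiv) (a : V.X.presheaf.stalk (M.f E.1)) : toK _ a ∈ loc E :=
  ⟨_, (M.pull_toK _ a).symm⟩

theorem ord_gen {D : V.Div} {E : M.PrimeDiv} {f g : V.K} (hf : GeneratesAt D f (M.f E.1))
    (hg : GeneratesAt D g (M.f E.1)) : ord f E = ord g E := by
  obtain ⟨b, b1, b2⟩ := exists_unit (x := M.f E.1) (mul_ne_zero hf.1 (inv_ne_zero hg.1))
    fun y hy => by
      rw [ordAlong_mul hf.1 (inv_ne_zero hg.1), ordAlong_inv hg.1]
      have h4 := hf.2 y hy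
      have h5 := hg.2 y hy
      omega
  have h1 : ord (f * g⁻¹) E = 0 := by
    rw [← b2, ord, M.pull_toK]
    exact ord_unit (b1.map _)
  rw [ord_mul hf.1 (inv_ne_zero hg.1), ord_inv hg.1] at h1
  omega

theorem exists_den (E : M.PrimeDiv) {ι : Type} [Finite ι] (t : ι → V.K) :
    ∃ d : V.K, d ≠ 0 ∧ d ∈ loc E ∧ ∀ i, d * t i ∈ loc E := by
  obtain ⟨⟨d, hd⟩, h⟩ := IsLocalization.exist_integer_multiples_of_finite
    (nonZeroDivisors (M.Y.presheaf.stalk E.1)) fun i => M.pull (t i)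
  refine ⟨M.pull.symm (toK _ d), (map_ne_zero _).2 (toK_ne_zero (nonZeroDivisors.ne_zero hd)),
    ⟨d, (M.pull.apply_symm_apply _).symm⟩, fun i => ?_⟩
  obtain ⟨a, ha⟩ := h i
  refine ⟨a, ?_⟩
  change _ = M.pull _
  rw [map_mul, RingEquiv.apply_symm_apply, ← Algebra.smul_def]
  exact ha

/-- Vector fields become regular after multiplication by a function. -/
theorem exists_regular (E : M.PrimeDiv) (w : V.Der) :
    ∃ s : V.K, s ≠ 0 ∧ ∀ g ∈ loc E, s * w g ∈ loc E := by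
  classical
  obtain ⟨U, W, hU, hW, hy, e⟩ := M.exists_chart E.1
  let σ := (M.f.appLE U W e).hom.comp (cst V.str U)
  let ψ : Γ(M.Y, W) →+* V.K :=
    M.pull.symm.toRingHom.comp ((toK E.1).comp (M.Y.presheaf.germ W E.1 hy).hom)
  have hψ : ∀ b, ψ b ∈ loc E := fun b => ⟨_, (M.pull.apply_symm_apply _).symm⟩
  have hσ : ∀ c, ψ (σ c) = algebraMap k V.K c := fun c => by
    have : Nonempty U := ⟨⟨_, e hy⟩⟩
    refine (M.pull.symm_apply_eq).2 ?_
    change toK E.1 (M.Y.presheaf.germ W E.1 hy (M.f.appLE U W e (cst V.str U c))) = _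
    rw [← M.germ_appLE e hy, ← M.pull_toK]
    congr 1
    exact (Scheme.algebraMap_germ_eq_germToFunctionField (U := U) _ (x := M.f _) (e hy) _).trans
      (germ_cst V.str U c)
  let _ := σ.toAlgebra
  have hft : Algebra.FiniteType k Γ(M.Y, W) :=
    (LocallyOfFiniteType.finiteType_appLE M.f hU hW e).comp (cst_finiteType V.str hU)
  obtain ⟨T, hT⟩ := hft.out
  obtain ⟨n, ⟨en⟩⟩ := Finite.exists_equiv_fin T
  obtain ⟨s, s0, s1, s2⟩ := exists_den E fun i : Fin n => w (ψ (en.symm i))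
  have key : ∀ b, s * w (ψ b) ∈ loc E := fun b => by
    have hb : b ∈ Algebra.adjoin k (T : Set Γ(M.Y, W)) := hT ▸ trivial
    induction hb using Algebra.adjoin_induction with
    | mem b hb => simpa using s2 (en ⟨b, hb⟩)
    | algebraMap c =>
      change s * w (ψ (σ c)) ∈ _
      rw [hσ, w.map_algebraMap, mul_zero]
      exact zero_mem _
    | add b c _ _ hb hc =>
      rw [map_add, map_add, mul_add]
      exact add_mem hb hc
    | mul b c _ _ hb hc =>
      have : s * w (ψ (b * c)) = ψ b * (s * w (ψ c)) + ψ c * (s * w (ψ b)) := by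
        rw [map_mul, w.leibniz, smul_eq_mul, smul_eq_mul]
        ring
      rw [this]
      exact add_mem (mul_mem (hψ b) hc) (mul_mem (hψ c) hb)
  refine ⟨s, s0, fun g hg => ?_⟩
  obtain ⟨t, ht⟩ := id hg
  obtain ⟨a, b, h1, h2⟩ := exists_frac hW hy t
  obtain ⟨c, hc⟩ := h1.exists_right_inv
  let c' := M.pull.symm (toK E.1 c)
  have h3 : c' ∈ loc E := ⟨_, (M.pull.apply_symm_apply _).symm⟩
  have h4 : ψ b * c' = 1 := by
    apply M.pull.injective
    rw [map_mul, map_one]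
    change M.pull (M.pull.symm _) * M.pull (M.pull.symm _) = 1
    rw [RingEquiv.apply_symm_apply, RingEquiv.apply_symm_apply]
    exact (map_mul (toK E.1) _ _).symm.trans (by rw [hc, map_one])
  have h5 : g * ψ b = ψ a := by
    apply M.pull.injective
    rw [map_mul]
    change _ * M.pull (M.pull.symm _) = M.pull (M.pull.symm _)
    rw [RingEquiv.apply_symm_apply, RingEquiv.apply_symm_apply]
    exact (congrArg (· * _) ht.symm).trans ((map_mul (toK E.1) _ _).symm.trans (congrArg _ h2))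
  have h6 : s * w g = c' * (s * w (ψ a) - g * (s * w (ψ b))) := by
    rw [← h5, w.leibniz, smul_eq_mul, smul_eq_mul]
    linear_combination (- s * w g) * h4
  rw [h6]
  exact mul_mem h3 (sub_mem (key a) (mul_mem hg (key b)))

/-- The divisors which are not exceptional. -/
theorem ord_eq {E : M.PrimeDiv} {D : V.PrimeDiv} (h : M.f E.1 = D.1) {g : V.K} (hg : g ≠ 0) :
    ord g E = ordAlong g D := by
  obtain ⟨D, hD⟩ := D
  obtain rfl : M.f E.1 = D := h
  refine (ord_eq_of_dom hD (fun g => ord g E) (fun _ _ a b => ord_mul a b E) ?_ (fun a ha => ?_)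
    hg).symm
  · obtain ⟨ϖ, h0, -, h1, -⟩ := exists_unif E.2
    exact ⟨M.pull.symm (toK _ ϖ), (map_ne_zero _).2 h0, by
      rw [ord, RingEquiv.apply_symm_apply, h1]⟩
  · have h1 := pull_ne (M := M) ha
    rw [M.pull_toK] at h1
    simp only [ord, M.pull_toK]
    exact ⟨ord_toK_nonneg _, fun hu => ord_toK_pos E.2 (fun e => h1 (by rw [e, map_zero]))
      fun e => hu ((isUnit_map_iff _ _).1 e)⟩

theorem reg_eq {E : M.PrimeDiv} {D : V.PrimeDiv} (h : M.f E.1 = D.1) (g : V.K) :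
    Reg E g ↔ IsRegularAt g D.1 :=
  (reg_ord E g).trans ((forall_congr' fun hg => by rw [ord_eq h hg]; rfl).trans
    (reg_iff D.2 g).symm)

theorem exists_qdiv (c : M.PrimeDiv → ℚ) (C : V.QDiv)
    (h : ∀ E (D : V.PrimeDiv), M.f E.1 = D.1 → c E = C D) : ∃ P : M.QDiv, ∀ E, P E = c E := by
  obtain ⟨W, h1, h2, h3⟩ := M.exists_open
  refine ⟨Finsupp.ofSupportFinite c ?_, fun _ => rfl⟩
  refine Set.Finite.of_finite_image (f := Subtype.val) ?_ Subtype.val_injective.injOn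
  have f1 := finite_codim_one ((W : Set M.Y)ᶜ) W.2.isClosed_compl (not_not.2 h1)
  have f2 : ((W : Set M.Y) ∩ M.f ⁻¹' (Subtype.val '' (C.support : Set V.PrimeDiv))).Finite :=
    Set.Finite.of_finite_image ((C.support.finite_toSet.image _).subset
      (by rintro _ ⟨y, hy, rfl⟩; exact hy.2)) (h2.mono Set.inter_subset_left)
  refine (f1.union f2).subset ?_
  rintro _ ⟨E, hE, rfl⟩
  by_cases hW : E.1 ∈ W
  · exact Or.inr ⟨hW, ⟨_, (h3 _ hW).trans E.2⟩, Finsupp.mem_support_iff.2 fun e =>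
      hE ((h E ⟨_, (h3 _ hW).trans E.2⟩ rfl).trans e), rfl⟩
  · exact Or.inl ⟨hW, E.2⟩

theorem pull_unique {L : V.QDiv} {P P' : M.QDiv} (h : IsPullback L P) (h' : IsPullback L P') :
    P = P' := by
  obtain ⟨m, D, hD, h⟩ := h
  obtain ⟨m', D', hD', h'⟩ := h'
  ext E
  obtain ⟨g, hg⟩ := hD.2.2 (M.f E.1)
  obtain ⟨g', hg'⟩ := hD'.2.2 (M.f E.1)
  have a1 : GeneratesAt (m' • D) (g ^ m') (M.f E.1) := ⟨pow_ne_zero _ hg.1, fun y hy => by
    rw [← zpow_natCast, ordAlong_zpow hg.1, Finsupp.smul_apply, nsmul_eq_mul, ← mul_add,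
      hg.2 y hy, mul_zero]⟩
  have a2 : GeneratesAt (m' • D) (g' ^ m) (M.f E.1) := ⟨pow_ne_zero _ hg'.1, fun y hy => by
    have e : (m' • D) y = m * D' y := by
      rw [Finsupp.smul_apply, nsmul_eq_mul]
      have : ((m' * D y : ℤ) : ℚ) = (m * D' y : ℤ) := by
        push_cast
        rw [hD.2.1 y, hD'.2.1 y]
        ring
      exact_mod_cast this
    rw [← zpow_natCast, ordAlong_zpow hg'.1, e, ← mul_add, hg'.2 y hy, mul_zero]⟩
  have a3 := ord_gen a1 a2
  rw [ord_pow hg.1, ord_pow hg'.1] at a3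
  have a4 := h E g hg
  have a5 := h' E g' hg'
  rw [ord_inv hg.1] at a4
  rw [ord_inv hg'.1] at a5
  have a6 : (m' : ℚ) * ord g E = m * ord g' E := by exact_mod_cast a3
  have hm : (m : ℚ) * m' ≠ 0 :=
    mul_ne_zero (Nat.cast_ne_zero.2 hD.1.ne') (Nat.cast_ne_zero.2 hD'.1.ne')
  refine mul_left_cancel₀ hm ?_
  push_cast at a4 a5
  linear_combination m' * a4 - m * a5 - a6

variable [CharZero k] [IsAlgClosed k] {n : ℕ} {ω : V.Form n} {κ : V.Div} {B : V.QDiv}

/-- The order of a form along a prime divisor of `Y` exists. -/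
theorem exists_order (hd : V.dim = n) (hω : ω.Nonzero) (E : M.PrimeDiv) :
    ∃ r : ℤ, IsLeast {m : ℤ | ∃ v : Fin n → V.Der,
      (∀ i g, Reg E g → Reg E (applyDer (v i) g)) ∧ ω.value v ≠ 0 ∧ ord (ω.value v) E = m} r := by
  obtain ⟨ι, _, _, x, U, h⟩ := P270L.S.exists_atlV V
  have := h.essFinite
  obtain ⟨t, -, c, -, c0, co, -⟩ := P270L.S.exists_frame (k := k) (K := V.K) hd ω hω
  obtain ⟨d, d0, d1, d2⟩ := exists_den E t
  obtain ⟨v, hv⟩ : ∃ v, ω v ≠ 0 :=
    by_contra fun e => hω (AlternatingMap.ext fun v => by_contra fun e' => e ⟨v, e'⟩)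
  choose s s0 s1 using fun i => exists_regular E (v i)
  obtain ⟨m, m1, m2⟩ := Int.exists_least_of_bdd (P := fun m : ℤ => ∃ v : Fin n → V.Der,
    (∀ i g, Reg E g → Reg E (applyDer (v i) g)) ∧ ω.value v ≠ 0 ∧ ord (ω.value v) E = m)
    ⟨ord c E - ord ((d * d) ^ n) E, by
      rintro _ ⟨w, w1, w2, rfl⟩
      have e : ω.value w = c * jac w t := co w
      have e1 : (d * d) ^ n * jac w t ∈ loc E := by
        have e2 := Matrix.det_smul (Matrix.of fun i j => w i (t j)) (d * d)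
        rw [Fintype.card_fin] at e2
        rw [jac, ← e2, Matrix.det_apply']
        refine sum_mem fun σ _ => mul_mem (intCast_mem _ _) (prod_mem fun i _ => ?_)
        have e3 : d * d * w (σ i) (t i) = d * w (σ i) (d * t i) - d * t i * w (σ i) d := by
          rw [Derivation.leibniz]
          simp only [smul_eq_mul]
          ring
        change d * d * w (σ i) (t i) ∈ loc E
        exact e3 ▸ sub_mem (mul_mem d1 (w1 _ _ (d2 _))) (mul_mem (d2 _) (w1 _ _ d1))
      rw [e] at w2 ⊢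
      have e4 := pow_ne_zero n (mul_ne_zero d0 d0)
      have e5 := (reg_ord E _).1 e1 (mul_ne_zero e4 (right_ne_zero_of_mul w2))
      rw [ord_mul e4 (right_ne_zero_of_mul w2)] at e5
      rw [ord_mul (left_ne_zero_of_mul w2) (right_ne_zero_of_mul w2)]
      omega⟩ ⟨_, fun i => s i • v i, s1, by
        have := ω.map_smul_univ s v
        change ω _ ≠ 0
        rw [this]
        exact smul_ne_zero (Finset.prod_ne_zero_iff.2 fun i _ => s0 i) hv, rfl⟩
  exact ⟨m, m1, m2⟩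

theorem exists_dec (h : IsPair ω κ B) {m : ℕ} {D : V.Div}
    (hD : IsCartierMultiple (toQ κ + B) m D) (M : Model V) :
    ∃ κ' P : M.QDiv, IsDivisorOn κ' ω ∧
      ∀ E g, GeneratesAt D g (E.1.map M.f) → m * P E = ord g⁻¹ E := by
  have hm : (m : ℚ) ≠ 0 := Nat.cast_ne_zero.2 hD.1.ne'
  choose r hr using exists_order (M := M) h.dim h.nonzero
  choose g hg using fun E : M.PrimeDiv => hD.2.2 (M.f E.1)
  have e1 : ∀ E (y : V.PrimeDiv), M.f E.1 = y.1 → r E = κ y := fun E y e => by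
    refine (hr E).unique ?_
    refine (congrArg (IsLeast · _) (Set.ext fun m => exists_congr fun v => ?_)).mp (h.canonical y)
    exact and_congr (forall_congr' fun i => forall_congr' fun g =>
      imp_congr (reg_eq e _).symm (reg_eq e _).symm)
      (and_congr_right fun hv => by rw [ord_eq e hv])
  have e2 : ∀ E (y : V.PrimeDiv), M.f E.1 = y.1 →
      (ord (g E)⁻¹ E : ℚ) / m = (toQ κ + B) y := fun E y e => by
    have h1 := (hg E).2 y (e ▸ specializes_rfl)
    rw [div_eq_iff hm, mul_comm, ← hD.2.1 y, ord_inv (hg E).1, ord_eq e (hg E).1]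
    congr 1
    omega
  obtain ⟨κ', hκ⟩ := exists_qdiv (fun E => (r E : ℚ)) (toQ κ)
    fun E y e => by rw [e1 E y e, toQ, Finsupp.mapRange_apply]
  obtain ⟨P, hP⟩ := exists_qdiv _ _ e2
  refine ⟨κ', P, fun E => ⟨r E, hκ E, hr E⟩, fun E f hf => ?_⟩
  rw [hP, mul_div_cancel₀ _ hm, ord_inv hf.1, ord_inv (hg E).1, ord_gen hf (hg E)]

/-- The log discrepancies are well defined. -/
theorem existsUnique_disc (h : IsPair ω κ B) (M : Model V) (E : M.PrimeDiv) :
    ∃! a, IsLogDiscrepancy ω (toQ κ + B) E a := by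
  obtain ⟨m, D, hD⟩ := h.cartier
  obtain ⟨κ', P, h1, h3⟩ := exists_dec h hD M
  refine ⟨_, ⟨κ', P, h1, ⟨m, D, hD, h3⟩, rfl⟩, ?_⟩
  rintro _ ⟨κ'', P', g1, g3, rfl⟩
  obtain rfl : κ' = κ'' := by
    ext E
    obtain ⟨n, a, b⟩ := h1 E
    obtain ⟨n', a', b'⟩ := g1 E
    rw [a, a', b.unique b']
  rw [pull_unique ⟨m, D, hD, h3⟩ g3]

theorem kltPair (h : IsPair ω κ B) (hl : IsKlt ω κ B) : IsKltPair ω κ B := by
  refine ⟨h.dim, h.nonzero, h.canonical, h.effective, h.cartier, ?_⟩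
  rintro F _ ⟨r, c, h1, ⟨m, D, x, f, h2, h3, h4, rfl⟩, rfl⟩
  obtain ⟨-, d, y, rfl, y1, y2⟩ := P270L.S.dvl_of h.dim F
  obtain ⟨M, E, rfl, e⟩ := exists_model h.dim F.place y1 y2 h3
  obtain ⟨κ', P, a1, a3⟩ := exists_dec h h2 M
  have h5 := hl M E _ ⟨κ', P, a1, ⟨m, D, h2, a3⟩, rfl⟩
  have hr : ∀ g, Reg E g ↔ g ∈ F.place.ring := fun g => (reg_ord E g).trans
    ⟨fun a => by
      by_cases hg : g = 0
      · exact hg ▸ zero_mem _
      exact (F.place.ord_nonneg_iff hg).1 (e g hg ▸ a hg),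
    fun a hg => e g hg ▸ F.place.ord_nonneg_of_mem a⟩
  obtain ⟨r', b1, b2⟩ := a1 E
  obtain rfl : r' = r := by
    refine b2.unique ((congrArg (IsLeast · _) (Set.ext fun m => exists_congr fun v => ?_)).mp h1)
    exact and_congr (forall_congr' fun i => forall_congr' fun g =>
      imp_congr (hr _).symm (hr _).symm) (and_congr_right fun hv => by rw [e _ hv])
  have hm : (m : ℚ) ≠ 0 := Nat.cast_ne_zero.2 h2.1.ne'
  have b3 : (F.place.ord f⁻¹ : ℚ) / m = P E := by
    rw [div_eq_iff hm, mul_comm, a3 E f h4, e _ (inv_ne_zero h4.1)]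
  rw [Finsupp.sub_apply] at h5
  rw [b3, ← b1]
  linarith

end Vale.Agent.P270W81
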