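import Vale.Agent.P270L.Stmt
import Vale.Agent.P289W.St

/-!
# P270: log discrepancies of the prime divisors on the normal birational models, klt pairs
-/

open Vale.Agent.P289 Vale.Agent.P289.Var Vale.Agent.P270L
open Vale.Agent.P289W (Model)

namespace Vale.Agent.P270W81

variable {k : Type} [Field k] {X : Var k} {Y : Model X}

/-- `κ = K_Y` is the divisor on `Y` of the rational form `ω`: its coefficient at `E` is the least
order along `E` of the nonzero values of `ω` on vector fields regular at `E`. -/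
def IsDivisorOn {n : ℕ} (κ : Y.QDiv) (ω : X.Form n) : Prop :=
  ∀ E, ∃ r : ℤ, κ E = r ∧ IsLeast {m : ℤ | ∃ v : Fin n → X.Der,
    (∀ i g, Model.Reg E g → Model.Reg E (applyDer (v i) g)) ∧ ω.value v ≠ 0 ∧
      Model.ord (ω.value v) E = m} r

/-- `P = f^* D` is the pull back of the `ℚ`-Cartier divisor `D`: if `1 / g` is an equation of the
Cartier divisor `m D` at the generic point of `f(E)`, then `m P` has coefficient `ord_E (1 / g)`. -/
def IsPullback (D : X.QDiv) (P : Y.QDiv) : Prop :=
  ∃ (m : ℕ) (G : X.Div), IsCartierMultiple D m G ∧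
    ∀ E g, GeneratesAt G g (E.1.map Y.f) → m * P E = Model.ord g⁻¹ E

/-- `a` is the log discrepancy of the pair `(X, B)` along the prime divisor `E` of `Y`, where
`D = K_X + B`: one plus the coefficient of `E` in `K_Y - f^* (K_X + B)`; `K_X` and `K_Y` are the
divisors of the same rational form `ω`. -/
def IsLogDiscrepancy {n : ℕ} (ω : X.Form n) (D : X.QDiv) (E : Y.PrimeDiv) (a : ℚ) : Prop :=
  ∃ κ P : Y.QDiv, IsDivisorOn κ ω ∧ IsPullback D P ∧ a = 1 + (κ - P) E

/-- `(X, B)` is a pair of dimension `n`, and `κ = K_X` is the divisor of the nonzero rational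
`n`-form `ω`. -/
structure IsPair {n : ℕ} (ω : X.Form n) (κ : X.Div) (B : X.QDiv) : Prop where
  dim : X.dim = n
  nonzero : ω.Nonzero
  canonical : IsDivisorOf κ ω
  effective : 0 ≤ B
  cartier : IsQCartier (toQ κ + B)

/-- All the log discrepancies of `(X, B)` are positive. -/
def IsKlt {n : ℕ} (ω : X.Form n) (κ : X.Div) (B : X.QDiv) : Prop :=
  ∀ (Y : Model X) (E : Y.PrimeDiv) (a : ℚ), IsLogDiscrepancy ω (toQ κ + B) E a → 0 < a

end Vale.Agent.P270W81
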