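import Vale.Agent.P270W81.St
import Vale.Agent.P289W.Zar
import Vale.Agent.P297.Bdl.B1

/-!
# P270W81: Zariski's lemma in every dimension
-/

set_option linter.all false

open CategoryTheory CategoryTheory.Limits AlgebraicGeometry TopologicalSpace Order IsLocalRing

namespace Vale.Agent.P270W81

open Vale.Agent.P289 Vale.Agent.P289.Var Vale.Agent.P289.H219 Vale.Agent.P299.G Vale.Agent.P289W
open Vale.Agent.P297 (Place)

attribute [local instance] MvPolynomial.gradedAlgebra

theorem dim_le {k R K : Type} [Field k] [CommRing R] [Algebra k R] [Field K] [Algebra k K]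
    [IsDomain R] [IsLocalRing R] (ι : R →ₐ[k] K) (hι : Function.Injective ι) {d : ℕ}
    (h3 : Algebra.trdeg k K = (d + 1 : ℕ)) (y : Fin d → R)
    (hy : ∀ F : MvPolynomial (Fin d) k, F ≠ 0 → IsUnit (MvPolynomial.aeval y F)) :
    Ring.KrullDimLE 1 R := by
  rw [Ring.krullDimLE_one_iff_of_isPrime_bot]
  intro P h0 hP
  by_contra hm
  have hle : P ≤ maximalIdeal R := le_maximalIdeal hP.ne_top
  obtain ⟨t, t1, t2⟩ : ∃ t ∈ maximalIdeal R, t ∉ P := by
    by_contra! h
    exact hm ((le_antisymm hle h) ▸ maximalIdeal.isMaximal R)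
  obtain ⟨s, s1, s2⟩ := Submodule.exists_mem_ne_zero_of_ne_bot h0
  have h1 := indep_step hle (fun F hF h => h (hy F hF)) t1 t2
  have h2 := indep_step (k := k) (P := ⊥) bot_le h1 s1 s2
  have h4 : AlgebraicIndependent k fun o : Option (Option (Fin d)) =>
      ι (o.elim s fun o => o.elim t y) := by
    refine algebraicIndependent_iff.2 fun F e => by_contra fun hF => h2 F hF ?_
    rw [Ideal.mem_bot]
    apply hι
    rw [map_zero, ← e, ← MvPolynomial.comp_aeval_apply]
  have h5 := h4.cardinalMk_le_trdeg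
  rw [h3, Cardinal.mk_fintype, Nat.cast_le] at h5
  simp at h5

/-- A point of the projective space with given affine coordinates. -/
theorem exists_space {k O : Type} [Field k] [CommRing O] [IsLocalRing O] (ρ : k →+* O) {d : ℕ}
    (y : Fin d → O) : ∃ h : Spec (.of O) ⟶ PP k d,
      h ≫ PP.str k d = Spec.map (CommRingCat.ofHom ρ) ∧
        ∀ i, ∃ a, (Scheme.stalkClosedPointTo (R := .of O) h).hom a = y i := by
  have hX : ∀ i, (MvPolynomial.X i : MvPolynomial (Fin (d + 1)) k) ∈ gr k d 1 := fun i =>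
    MvPolynomial.isHomogeneous_X k i
  let ψ : MvPolynomial (Fin (d + 1)) k →+* O := MvPolynomial.eval₂Hom ρ (Fin.cons 1 y)
  have h1 : ψ (MvPolynomial.X 0) * 1 = 1 := by simp [ψ]
  let φ : HomogeneousLocalization.Away (gr k d) (MvPolynomial.X 0) →+* O :=
    (Localization.awayLift ψ _ (isUnit_iff_exists_inv.mpr ⟨1, h1⟩)).comp (algebraMap _ _)
  refine ⟨Spec.map (CommRingCat.ofHom φ) ≫ Proj.awayι (gr k d) _ (hX 0) one_pos, ?_, fun i => ?_⟩
  · change Spec.map (CommRingCat.ofHom φ) ≫ Proj.awayι (gr k d) _ (hX 0) one_pos ≫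
      Proj.toSpecZero (gr k d) ≫ Spec.map (CommRingCat.ofHom (algebraMap k (gr k d 0))) = _
    rw [Proj.awayι_toSpecZero_assoc, ← Spec.map_comp, ← Spec.map_comp]
    congr 1
    ext c
    change Localization.awayLift ψ _ (isUnit_iff_exists_inv.mpr ⟨1, h1⟩)
      (Localization.mk (MvPolynomial.C c) 1) = ρ c
    rw [Localization.mk_one_eq_algebraMap, IsLocalization.Away.lift_eq]
    simp [ψ]
  · erw [Scheme.stalkClosedPointTo_comp]
    obtain ⟨a, ha⟩ := (ConcreteCategory.bijective_of_isIso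
      ((Proj.awayι (gr k d) _ (hX 0) one_pos).stalkMap
        (Spec.map (CommRingCat.ofHom φ) (closedPoint O)))).2
      ((Spec _).presheaf.germ ⊤ _ trivial ((Scheme.ΓSpecIso _).inv
        (HomogeneousLocalization.Away.mk (gr k d) (hX 0) 1 (MvPolynomial.X i.succ) (hX _))))
    refine ⟨a, ?_⟩
    erw [CommRingCat.comp_apply, ha, ← CommRingCat.comp_apply,
      Scheme.germ_stalkClosedPointTo_Spec, CommRingCat.comp_apply, Iso.inv_hom_id_apply]
    change Localization.awayLift ψ _ (isUnit_iff_exists_inv.mpr ⟨1, h1⟩)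
      (Localization.mk _ _) = _
    rw [Localization.awayLift_mk ψ _ _ 1 h1]
    simp [ψ]

theorem pl_unit {K : Type} [Field K] (F : Place K) {a : F.ring} :
    IsUnit a ↔ a.1 ≠ 0 ∧ F.ord a = 0 := by
  constructor
  · intro h
    obtain ⟨b, hb⟩ := h.exists_right_inv
    have e : a.1 * b.1 = 1 := congrArg Subtype.val hb
    have h1 := left_ne_zero_of_mul_eq_one e
    exact ⟨h1, (F.ord_eq_zero_iff h1).2 ⟨a.2, eq_inv_of_mul_eq_one_right e ▸ b.2⟩⟩
  · rintro ⟨h1, h2⟩
    exact IsUnit.of_mul_eq_one ⟨a.1⁻¹, ((F.ord_eq_zero_iff h1).1 h2).2⟩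
      (Subtype.ext (mul_inv_cancel₀ h1))

variable {k : Type} [Field k] [PerfectField k] {V : Var k} {d : ℕ}

theorem ord_lift (hd : V.dim = (d + 1 : ℕ)) (F : Place V.K) (M : Model V) (E : M.Y)
    (lam : M.Y.presheaf.stalk E →+* F.ring) [IsLocalHom lam]
    (hl : ∀ a, (lam a).1 = M.pull.symm (toK E a)) {y : Fin d → V.K}
    (hy : ∀ P : MvPolynomial (Fin d) k, P ≠ 0 → F.val (MvPolynomial.aeval y P) = 1)
    (hyE : ∀ j, ∃ a, (lam a).1 = y j) :
    ∃ h : coheight E = 1, ∀ g, g ≠ 0 → Model.ord g (⟨E, h⟩ : M.PrimeDiv) = F.ord g := by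
  choose y' hy' using hyE
  have hco : coheight E = 1 := by
    let _ : Algebra k (M.Y.presheaf.stalk E) := ((M.f.stalkMap E).hom.comp
      ((V.X.presheaf.germ ⊤ (M.f E) trivial).hom.comp (cst V.str ⊤))).toAlgebra
    let ι : M.Y.presheaf.stalk E →ₐ[k] V.K :=
      { M.pull.symm.toRingHom.comp (toK E) with
        commutes' := fun c => M.pull.symm_apply_eq.2 ((M.pull_toK E _).symm.trans (by
          have : Nonempty (⊤ : V.X.Opens) := ⟨⟨M.f E, trivial⟩⟩
          exact congrArg _ ((Scheme.algebraMap_germ_eq_germToFunctionField (U := ⊤) _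
            (x := M.f E) trivial _).trans (germ_cst V.str ⊤ c)))) }
    have h3 := dim_le ι (M.pull.symm.injective.comp (toK_injective E)) hd y' fun P hP => by
      rw [← isUnit_map_iff lam, pl_unit, hl]
      change ι _ ≠ 0 ∧ F.ord (ι _) = 0
      rw [MvPolynomial.comp_aeval_apply,
        show (fun j => ι (y' j)) = y from funext fun j => (hl _).symm.trans (hy' j)]
      exact ⟨F.val.ne_zero_iff.1 (hy P hP ▸ one_ne_zero), by
        rw [F.ord_eq, hy P hP, WithZero.log_one, neg_zero]⟩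
    rw [Ring.krullDimLE_iff, ringKrullDim_stalk_eq_coheight] at h3
    refine le_antisymm (by exact_mod_cast h3) (Order.one_le_iff_ne_zero.2 fun h0 => ?_)
    have h4 : E ⤳ genericPoint M.Y := coheight_eq_zero.1 h0 (genericPoint_specializes E)
    obtain ⟨π, p0, p1⟩ := F.exists_ord_eq_one
    have h5 := (lam (toStalk h4 (M.pull π⁻¹))).2
    have h6 : toK (genericPoint M.Y) (M.pull π⁻¹) = M.pull π⁻¹ :=
      congrArg (fun φ => φ.hom (M.pull π⁻¹))
        (M.Y.presheaf.stalkSpecializes_refl (genericPoint M.Y))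
    rw [hl, toK_toStalk, h6, RingEquiv.symm_apply_apply] at h5
    have h8 := F.ord_nonneg_of_mem h5
    rw [F.ord_inv] at h8
    omega
  refine ⟨hco, fun t ht => ?_⟩
  refine (ord_eq_of_dom hco (fun s => F.ord (M.pull.symm s)) (fun a b ha hb => ?_) ?_
    (fun a ha => ?_) ((map_ne_zero M.pull).2 ht)).trans (congrArg _ (M.pull.symm_apply_apply t))
  · simp only [map_mul]
    exact F.ord_mul ((map_ne_zero _).2 ha) ((map_ne_zero _).2 hb)
  · obtain ⟨π, p0, p1⟩ := F.exists_ord_eq_one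
    exact ⟨M.pull π, (map_ne_zero _).2 p0, by rw [M.pull.symm_apply_apply, p1]⟩
  · have h3 : (lam a).1 ≠ 0 := by rw [hl]; exact (map_ne_zero _).2 ha
    have h4 := F.ord_nonneg_of_mem (lam a).2
    simp only [← hl]
    exact ⟨h4, fun hu => lt_of_le_of_ne h4 fun h5 =>
      hu ((isUnit_map_iff lam a).1 ((pl_unit F).2 ⟨h3, h5.symm⟩))⟩

/-- **Zariski's lemma.** -/
theorem exists_model (hd : V.dim = (d + 1 : ℕ)) (F : Place V.K) {y : Fin d → V.K}
    (hyO : ∀ j, y j ∈ F.ring)
    (hy : ∀ P : MvPolynomial (Fin d) k, P ≠ 0 → F.val (MvPolynomial.aeval y P) = 1) {x : V.X}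
    (hx : ∀ a, toK x a ∈ F.ring ∧ (¬ IsUnit a → toK x a ∈ F.ring.nonunits)) :
    ∃ (M : Model V) (E : M.PrimeDiv), M.f E.1 = x ∧ ∀ g, g ≠ 0 → Model.ord g E = F.ord g := by
  let O := F.ring
  let i : CommRingCat.of O ⟶ .of V.K := CommRingCat.ofHom (algebraMap O V.K)
  let α : V.X.presheaf.stalk x ⟶ .of O :=
    CommRingCat.ofHom ((toK x).codRestrict O fun a => (hx a).1)
  have : IsLocalHom α.hom := ⟨fun a ha => by_contra fun h =>
    (ValuationSubring.coe_mem_nonunits_iff (a := α.hom a)).1 ((hx a).2 h) ha⟩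
  let c : Spec (.of O) ⟶ V.X := Spec.map α ≫ V.X.fromSpecStalk x
  have hc : Spec.map i ≫ c = gp V.X := by
    rw [← tk_gp x, ← Spec.map_comp_assoc]
    rfl
  have hx : c (closedPoint O) = x := by
    exact (congrArg (V.X.fromSpecStalk x) (Spec_closedPoint (f := α))).trans
      Scheme.fromSpecStalk_closedPoint
  clear_value c
  obtain ⟨h, h1, h2⟩ := exists_space (Spec.preimage (c ≫ V.str)).hom fun j => (⟨y j, hyO j⟩ : O)
  rw [CommRingCat.ofHom_hom, Spec.map_preimage] at h1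
  obtain ⟨g₀, g1, g2⟩ : ∃ g₀ : Spec (.of O) ⟶ pullback V.str (PP.str k d),
      g₀ ≫ pullback.fst _ _ = c ∧ g₀ ≫ pullback.snd _ _ = h :=
    ⟨pullback.lift c h h1.symm, pullback.lift_fst _ _ _, pullback.lift_snd _ _ _⟩
  obtain ⟨M, ν, τ, m1, m2, m3, m4⟩ := exists_nrm (Spec.map i ≫ g₀) (pullback.fst _ _)
    (by rw [Category.assoc, g1, hc])
  rw [UniversallyClosed.eq_valuativeCriterion] at m3
  obtain ⟨l, l1, l2⟩ := (m3.1
    { R := O, K := V.K, i₁ := τ, i₂ := g₀, commSq := ⟨m2⟩ }).exists_lift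
  change Spec.map i ≫ l = τ at l1
  change l ≫ ν = g₀ at l2
  obtain ⟨hE, h3⟩ := ord_lift hd F M _ (Scheme.stalkClosedPointTo (R := .of O) l).hom
    (fun a => by
      have e : Scheme.stalkClosedPointTo (R := .of O) l ≫ i =
          CommRingCat.ofHom (M.pull.symm.toRingHom.comp (toK _)) := by
        refine stalk_ext ?_
        rw [m4, Spec.map_comp, Category.assoc, Scheme.Spec_stalkClosedPointTo_fromSpecStalk, l1]
      exact congrArg (fun φ => φ.hom a) e) hy fun j => by
    obtain ⟨a, ha⟩ := range_comp (l := l) (q := ν ≫ pullback.snd _ _)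
      (by rw [← Category.assoc, l2, g2]) (h2 j)
    exact ⟨a, congrArg Subtype.val ha⟩
  refine ⟨M, ⟨_, hE⟩, ?_, h3⟩
  rw [← hx, ← g1, ← l2, Category.assoc, m1]
  rfl

end Vale.Agent.P270W81
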